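import Vale.Agent.P064.Peel
import Vale.Agent.P064.Iterate

namespace Vale.Agent.Results.P064.SecondKahnKalai

open Vale.Agent.P064

/-- The second Kahn–Kalai conjecture, and `p̃_E = O(p_E)`. -/
theorem result : ∃ C : ℝ, 0 < C ∧ ∀ n : ℕ, 2 ≤ n → ∀ (V : Type) [Fintype V] (H : SimpleGraph V),
    Fintype.card V ≤ n → H ≠ ⊥ →
      pc n H ≤ C * pE n H * Real.log n ∧ pT n H ≤ C * pE n H := by
  classical
  refine ⟨3072 * Real.exp 169, by positivity, fun n hn V _ H hcard hH => ?_⟩
  obtain ⟨φ⟩ : Nonempty (V ↪ Fin n) := Function.Embedding.nonempty_of_card_le (by simpa using hcard)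
  have hl := log_n hn
  have hlog : 0 < Real.log n := by linarith
  set s := {p : ℝ | 0 ≤ p ∧ p ≤ 1 ∧ ∀ F : H.Subgraph, 1 / 2 ≤ meanCopies n p F.coe}
  have hne : s.Nonempty := ⟨1, zero_le_one, le_rfl, fun F => by
    have h₀ : Function.Injective fun v : F.verts => φ v.1 :=
      φ.injective.comp Subtype.val_injective
    rw [meanCopies_eq F.coe 1 h₀, one_pow, mul_one]
    have h1 : (1 : ℝ) ≤ (cop F.coe fun v : F.verts => φ v.1).card := by
      exact_mod_cast Finset.card_pos.2 ⟨_, Finset.mem_image_of_mem _ (Finset.mem_univ 1)⟩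
    linarith⟩
  have hb : ∀ p ∈ s, pc n H ≤ 3072 * Real.exp 169 * Real.log n * p ∧
      pT n H ≤ 3072 * Real.exp 169 * p := by
    rintro p hp
    have hp0 : 0 < p := by
      refine lt_of_le_of_ne hp.1 fun hp0 => ?_
      have h := hp.2.2 ⊤
      have h₀ : Function.Injective fun v : (⊤ : H.Subgraph).verts => φ v.1 :=
        φ.injective.comp Subtype.val_injective
      rw [meanCopies_eq _ p h₀, ← hp0, zero_pow, mul_zero] at h
      · norm_num at h
      · obtain ⟨a, b, hab⟩ : ∃ a b, H.Adj a b := by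
          by_contra hno
          push Not at hno
          exact hH (eq_bot_iff.2 fun a b hab => absurd hab (hno a b))
        refine Finset.card_ne_zero.2 ⟨s(φ a, φ b), ?_⟩
        simp only [key, Finset.mem_image, Set.Finite.mem_toFinset]
        exact ⟨s(⟨a, trivial⟩, ⟨b, trivial⟩), hab, rfl⟩
    have h := bounds_of_spread H φ hn (ν := Real.exp 169 * (2 * p)) (by positivity)
      (pr_le_univ pairAct (by positivity) (spr_of_feasible H φ hp.1 hp.2.2))
    have hx := mul_pos (Real.exp_pos (169 : ℝ)) hp0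
    exact ⟨h.2.trans (by nlinarith [mul_pos hx hlog]), h.1.trans (by nlinarith)⟩
  have key' : ∀ {c x : ℝ}, 0 < c → (∀ p ∈ s, x ≤ c * p) → x ≤ c * pE n H := fun {c x} hc h => by
    rw [← div_le_iff₀' hc]
    exact le_csInf hne fun p hp => (div_le_iff₀' hc).2 (h p hp)
  refine ⟨?_, key' (by positivity) fun p hp => (hb p hp).2⟩
  rw [mul_right_comm]
  exact key' (by positivity) fun p hp => (hb p hp).1

end Vale.Agent.Results.P064.SecondKahnKalai
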